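import Mathlib

/-!
# P160, job N3: counting labellings

The number of maps `p' : Fin n → Fin (L + k)` whose labels outside `I` are below `L` is at most
`L ^ n * (L + k) ^ |I|`.
-/

namespace Vale.Agent.Lib.P160.H52

open Finset

theorem card_labels {n : ℕ} (I : Finset (Fin n)) (L k : ℕ) (hL : 1 ≤ L) :
    (univ.filter fun p' : Fin n → Fin (L + k) => ∀ j, j ∉ I → (p' j).val < L).card ≤
      L ^ n * (L + k) ^ I.card := by
  classical
  let t : Fin n → Finset (Fin (L + k)) := fun j =>
    if j ∈ I then univ else univ.filter (fun x : Fin (L + k) => x.val < L)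
  have hsub : (univ.filter fun p' : Fin n → Fin (L + k) => ∀ j, j ∉ I → (p' j).val < L) ⊆
      Fintype.piFinset t := by
    intro p hp
    rw [mem_filter] at hp
    rw [Fintype.mem_piFinset]
    intro j
    by_cases hj : j ∈ I
    · simp [t, hj]
    · simp [t, hj, hp.2 j hj]
  have hsmall : (univ.filter (fun x : Fin (L + k) => x.val < L)).card ≤ L := by
    have h1 : (univ.filter (fun x : Fin (L + k) => x.val < L)).card ≤ (Finset.range L).card := by
      apply Finset.card_le_card_of_injOn (fun x => x.val)
      · intro x hx
        have hx' : x.val < L := by simpa using hx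
        simpa using hx'
      · intro x _ y _ hxy
        exact Fin.ext hxy
    simpa using h1
  have hfac : ∀ j : Fin n, (t j).card ≤ (if j ∈ I then (L + k) else 1) * L := by
    intro j
    by_cases hj : j ∈ I
    · have h1 : t j = univ := if_pos hj
      rw [h1, if_pos hj, Finset.card_univ, Fintype.card_fin]
      exact Nat.le_mul_of_pos_right _ hL
    · have h1 : t j = univ.filter (fun x : Fin (L + k) => x.val < L) := if_neg hj
      rw [h1, if_neg hj, one_mul]
      exact hsmall
  calc (univ.filter fun p' : Fin n → Fin (L + k) => ∀ j, j ∉ I → (p' j).val < L).card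
      ≤ (Fintype.piFinset t).card := card_le_card hsub
    _ = ∏ j, (t j).card := Fintype.card_piFinset t
    _ ≤ ∏ j : Fin n, ((if j ∈ I then (L + k) else 1) * L) :=
        Finset.prod_le_prod (fun _ _ => Nat.zero_le _) (fun j _ => hfac j)
    _ = (∏ j : Fin n, (if j ∈ I then (L + k) else 1)) * L ^ n := by
        rw [Finset.prod_mul_distrib, Finset.prod_const, Finset.card_univ, Fintype.card_fin]
    _ = (L + k) ^ I.card * L ^ n := by
        rw [Finset.prod_ite_mem, Finset.univ_inter, Finset.prod_const]
    _ = L ^ n * (L + k) ^ I.card := mul_comm _ _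

end Vale.Agent.Lib.P160.H52
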